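import Vale.Agent.P281.H64.TU.Spec
import Vale.Agent.P281.H349.NF.NeatF
import Vale.Agent.P281.H713.TZ.SFin

/-!
# P281, project T-U, block UF (helper303): the assembly
-/

open Set Filter Metric Vale.Agent.P281 Vale.Agent.P281.H713
open Vale.Agent.P272.K (Chart IsKahler IsHermitian)
open Vale.Agent.P281.MF Vale.Agent.P281.ISO
open Vale.Agent.P281.H713.TZ Vale.Agent.P281.H64
open Vale.Agent.P281.H64.Gen
open Vale.Agent.P281.H64.Thin (IsThinSet)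
open scoped Topology ContDiff Manifold

set_option linter.all false

noncomputable section

namespace Vale.Agent.P281.H303.UF

/-- the last step of the theorems on neat models (helper364, `neatFin`) -/
def FinStmt : Prop :=
  ∀ (n p : ℕ) (X Y X₁ Y₁ : Type) [tX : TopologicalSpace X]
    [cX : ChartedSpace (Cm n) X] [tY : TopologicalSpace Y] [cY : ChartedSpace (Cm p) Y]
    [tX₁ : TopologicalSpace X₁] [cX₁ : ChartedSpace (Cm n) X₁] [tY₁ : TopologicalSpace Y₁]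
    [cY₁ : ChartedSpace (Cm p) Y₁] (f : X → Y) (Δ : Set X → ℝ) (f₁ : X₁ → Y₁)
    (Δ₁ : Set X₁ → ℝ), H511.Surf.IsFibration (Cm n) (Cm p) f Δ →
    H511.Surf.IsFibration (Cm n) (Cm p) f₁ Δ₁ →
    TZ.S.IsStep (Cm n) (Cm p) f₁ Δ₁ f Δ →
    NoExc (Cm n) (Cm p) f₁ ∨ ExcOne (Cm n) (Cm p) f₁ Δ₁ → ∀ a : WithBot ℕ∞,
    a + TZ.S.kodF n p Δ₁ (id : X₁ → X₁) f₁ ≤ TZ.S.kodX (Cm n) Δ₁ →
    a + TZ.S.kap (Cm n) (Cm p) ⟨X, Y, tX, tY, cX, cY, f, Δ⟩ ≤ TZ.S.kodX (Cm n) Δ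

/-- from sections to the first inequality -/
theorem first_of {n p r : ℕ} {X Y : Type} [TopologicalSpace X] [ChartedSpace (Cm n) X]
    [TopologicalSpace Y] [ChartedSpace (Cm p) Y] {f : X → Y} {Δ : Set X → ℝ}
    (h : ∀ j₂, KodFGE n p Δ (id : X → X) f j₂ →
      KodGE (Cm n) (fun (D : Set X) z g => IsLocalEq (Cm n) D g z) Δ (j₂ + r)) :
    ((r : ℕ∞) : WithBot ℕ∞) + TZ.S.kodF n p Δ (id : X → X) f ≤ TZ.S.kodX (Cm n) Δ := by
  have h0 : TZ.S.kodX (Cm n) Δ =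
      kod (Cm n) (fun (D : Set X) z g => IsLocalEq (Cm n) D g z) Δ := by
    unfold TZ.S.kodX
    rw [JB.kod_eq]
    rfl
  rw [TZ.S.kodF_eq, h0]
  rcases kodF_attained (n := n) (p := p) Δ id f with h2 | ⟨j₂, h2, e2⟩
  · rw [h2, WithBot.add_bot]
    exact bot_le
  · have h3 : (((j₂ + r : ℕ) : ℕ∞) : WithBot ℕ∞) ≤
        kod (Cm n) (fun (D : Set X) z g => IsLocalEq (Cm n) D g z) Δ := by
      unfold kod
      exact le_iSup₂_of_le (j₂ + r) (h j₂ h2) le_rfl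
    rw [e2]
    refine le_trans (le_of_eq ?_) h3
    push_cast
    rw [add_comm]

/-- the very general fibres of `f`, as fibres of `f₁` -/
theorem square (gen : TK.GenNStmt) (img : TK.ImgNStmt) (exc : ExcStmt) (crit : CritStmt)
    {p d : ℕ} {X Y X₁ Y₁ : Type} [TopologicalSpace X]
    [ChartedSpace (Cm (p + d)) X] [TopologicalSpace Y] [ChartedSpace (Cm p) Y]
    [TopologicalSpace X₁] [ChartedSpace (Cm (p + d)) X₁] [TopologicalSpace Y₁]
    [ChartedSpace (Cm p) Y₁] {f : X → Y} {Δ : Set X → ℝ} {f₁ : X₁ → Y₁} {Δ₁ : Set X₁ → ℝ}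
    (h : H511.Surf.IsFibration (Cm (p + d)) (Cm p) f Δ)
    (h₁ : H511.Surf.IsFibration (Cm (p + d)) (Cm p) f₁ Δ₁) {u : X₁ → X} {v : Y₁ → Y}
    (hu : TZ.S.IsModif (Cm (p + d)) u) (hv : TZ.S.IsModif (Cm p) v)
    (hcomm : ∀ x, f (u x) = v (f₁ x)) {S' : Set Y₁}
    (hS' : IsSmallSet (Cm p) S') (hP' : IsProperFibration (n := p + d) (p := p) f₁ S') :
    ∃ (S : Set Y) (H : ℕ → Set Y), (∀ k, IsThinSet (Cm p) (H k)) ∧ ∀ y, (∀ k, y ∉ H k) →
      ∀ (F : Type) [TopologicalSpace F] [ChartedSpace (Cm d) F] (i : F → X),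
        H511.Surf.IsFibre (Cm (p + d)) (Cm d) f y i → Function.Injective i →
        ∃ y₁, TK.IsSquare (p + d) p d f f₁ u v S S' y y₁ i := by
  have : T2Space X := h.hausdorff.1
  have : T2Space Y := h.hausdorff.2
  have : T2Space X₁ := h₁.hausdorff.1
  have : T2Space Y₁ := h₁.hausdorff.2
  have : CompactSpace X := h.compact
  have : CompactSpace X₁ := h₁.compact
  have : IsManifold 𝓘(ℂ, Cm (p + d)) ω X := h.manifold.1
  have : IsManifold 𝓘(ℂ, Cm p) ω Y := h.manifold.2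
  have : IsManifold 𝓘(ℂ, Cm (p + d)) ω X₁ := h₁.manifold.1
  have : IsManifold 𝓘(ℂ, Cm p) ω Y₁ := h₁.manifold.2
  have : CompactSpace Y := by
    have hsur : Function.Surjective f := fun y => (h.fibres y).nonempty
    exact ⟨by rw [← hsur.range_eq]; exact isCompact_range h.hol.continuous⟩
  have : CompactSpace Y₁ := by
    have hsur : Function.Surjective f₁ := fun y => (h₁.fibres y).nonempty
    exact ⟨by rw [← hsur.range_eq]; exact isCompact_range h₁.hol.continuous⟩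
  have hMv := H349.NF.mod_modif exc hv
  obtain ⟨S, hS, hP⟩ := crit (p + d) p X Y f h.hol h.fibres
  obtain ⟨H₁, hH₁, hsub₁⟩ := hS.2
  obtain ⟨H₁', hH₁', hsub₁'⟩ := hS'.2
  obtain ⟨H₂, hH₂, hmain₂⟩ := gen p d X Y f (u '' excSet (Cm (p + d)) u) h.hol
    (exc (p + d) X X₁ u hu)
  obtain ⟨H₃, hH₃, hsub₃⟩ := img p Y Y₁ v H₁' hv hH₁'
  obtain ⟨K, hK, hKy⟩ := H349.NF.thin_two hH₂ hH₃
  obtain ⟨L, hL, hLy⟩ := H349.NF.thin_two hK hH₁
  refine ⟨S, L, hL, fun y hy F _ _ i hi hinj => ?_⟩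
  obtain ⟨hyK, hyS⟩ := hLy y hy
  obtain ⟨hy₂, hy₃⟩ := hKy y hyK
  have hyv : y ∉ v '' (excSet (Cm p) v ∪ ⋃ k, H₁' k) := by
    intro h1
    obtain ⟨k, hk⟩ := mem_iUnion.1 (hsub₃ h1)
    exact hy₃ k hk
  have hvy : v (H308.Bir.inv hMv y) = y := H308.Bir.u_inv hMv y
  have hyN : v (H308.Bir.inv hMv y) ∉ v '' excSet (Cm p) v := by
    rw [hvy]
    exact fun h1 => hyv (image_mono subset_union_left h1)
  refine ⟨H308.Bir.inv hMv y, hu, hcomm, h.hol, h₁.hol, hP S subset_rfl hS.1, hP', fun hyS' => ?_,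
    fun hyS' => ?_, ?_, hi, hinj, hmain₂ y hy₂ F i hi⟩
  · obtain ⟨k, hk⟩ := mem_iUnion.1 (hsub₁ hyS')
    exact hyS k hk
  · obtain ⟨k, hk⟩ := mem_iUnion.1 (hsub₁' hyS')
    exact hyv ⟨_, Or.inr (mem_iUnion.2 ⟨k, hk⟩), hvy⟩
  · ext z
    constructor
    · intro hz
      have hz' : v z = y := hz
      exact (hMv.inj _ _ (hvy.trans hz'.symm) hyN).symm
    · intro hz
      rw [mem_singleton_iff.1 hz]
      exact hvy

/-- the Gauss map has rank at most `d` -/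
theorem ndeg_le {n p d r : ℕ} {Z Y : Type} [TopologicalSpace Z]
    [ChartedSpace (Cm n) Z] [TopologicalSpace Y] [ChartedSpace (Cm p) Y] {f : Z → Y} {y : Y}
    (h : TK.NDeg n p d r f y) : r ≤ d := by
  obtain ⟨E, Γ, _, _, _, _, _, _, 𝓕, q, χ, t, ht, -, -, i, z, -, h', -, -, hs⟩ := h
  let L : Cm d →ₗ[ℂ] (Fin r → ℂ) := LinearMap.pi fun k : Fin r =>
    (fderiv ℂ (fun u => (𝓕.at t ht).minor (h' k.succ) i u / (𝓕.at t ht).minor (h' 0) i u) z :
      Cm d →ₗ[ℂ] ℂ)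
  have hL : Function.Surjective L := hs
  have h1 := LinearMap.finrank_le_finrank_of_surjective hL
  rw [Module.finrank_fin_fun] at h1
  exact h1.trans (le_of_eq (Module.finrank_fin_fun ℂ))

/-- the assembly, from the first inequality for `f₁` -/
theorem core (deg : TK.DegStmt) (ab : TK.ABStmt) (fibN : TK.FibNStmt)
    (gen : TK.GenNStmt) (img : TK.ImgNStmt) (exc : ExcStmt)
    (crit : CritStmt) (compl : ComplStmt)
    {p d r : ℕ} {X Y X₁ Y₁ : Type} [TopologicalSpace X]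
    [ChartedSpace (Cm (p + d)) X] [TopologicalSpace Y] [ChartedSpace (Cm p) Y]
    [TopologicalSpace X₁] [ChartedSpace (Cm (p + d)) X₁] [TopologicalSpace Y₁]
    [ChartedSpace (Cm p) Y₁] {f : X → Y} {Δ : Set X → ℝ} {f₁ : X₁ → Y₁} {Δ₁ : Set X₁ → ℝ}
    (hd : 0 < d) (h : H511.Surf.IsFibration (Cm (p + d)) (Cm p) f Δ)
    (h₁ : H511.Surf.IsFibration (Cm (p + d)) (Cm p) f₁ Δ₁) {u : X₁ → X} {v : Y₁ → Y}
    (hu : TZ.S.IsModif (Cm (p + d)) u) (hv : TZ.S.IsModif (Cm p) v)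
    (hcomm : ∀ x, f (u x) = v (f₁ x))
    {w : Chart (p + d) X₁ → Cm (p + d) → Matrix (Fin (p + d)) (Fin (p + d)) ℂ}
    (hw : IsKahler w)
    (hfirst : ∀ (S' : Set Y₁) (R : ℕ), IsSmallSet (Cm p) S' →
      IsProperFibration (n := p + d) (p := p) f₁ S' → IsPreconnected S'ᶜ → S'ᶜ.Nonempty →
      (∀ y ∉ S', TK.NDeg (p + d) p d R f₁ y) → (∀ y ∉ S', ¬ TK.NDeg (p + d) p d (R + 1) f₁ y) →
      ((R : ℕ∞) : WithBot ℕ∞) + TZ.S.kodF (p + d) p Δ₁ (id : X₁ → X₁) f₁ ≤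
        TZ.S.kodX (Cm (p + d)) Δ₁) :
    ∃ H : ℕ → Set Y, (∀ k, IsThinSet (Cm p) (H k)) ∧ ∀ y, (∀ k, y ∉ H k) →
      ∀ (F : Type) [TopologicalSpace F] [ChartedSpace (Cm d) F] (i : F → X),
        H511.Surf.IsFibre (Cm (p + d)) (Cm d) f y i → Function.Injective i → TK.GaussRank d F r →
        ((r : ℕ∞) : WithBot ℕ∞) + TZ.S.kodF (p + d) p Δ₁ (id : X₁ → X₁) f₁ ≤
          TZ.S.kodX (Cm (p + d)) Δ₁ := by
  classical
  have : T2Space X := h.hausdorff.1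
  have : T2Space Y := h.hausdorff.2
  have : T2Space X₁ := h₁.hausdorff.1
  have : T2Space Y₁ := h₁.hausdorff.2
  have : CompactSpace X := h.compact
  have : CompactSpace X₁ := h₁.compact
  have : ConnectedSpace X₁ := h₁.connected
  have : IsManifold 𝓘(ℂ, Cm (p + d)) ω X := h.manifold.1
  have : IsManifold 𝓘(ℂ, Cm p) ω Y := h.manifold.2
  have : IsManifold 𝓘(ℂ, Cm (p + d)) ω X₁ := h₁.manifold.1
  have : IsManifold 𝓘(ℂ, Cm p) ω Y₁ := h₁.manifold.2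
  have hsurj : Function.Surjective f₁ := fun y => (h₁.fibres y).nonempty
  have : PreconnectedSpace Y₁ := by
    rw [preconnectedSpace_iff_univ, ← hsurj.range_eq]
    exact isPreconnected_range h₁.hol.continuous
  have : Nonempty Y₁ := by
    obtain ⟨x⟩ : Nonempty X₁ := inferInstance
    exact ⟨f₁ x⟩
  obtain ⟨S₁, hS₁, hP⟩ := crit (p + d) p X₁ Y₁ f₁ h₁.hol h₁.fibres
  have hP₁ := hP S₁ subset_rfl hS₁.1
  -- the generic rank is at least `R`
  let P : ℕ → Prop := fun R => ∃ S : Set Y₁, S₁ ⊆ S ∧ IsSmallSet (Cm p) S ∧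
    ∀ y ∉ S, TK.NDeg (p + d) p d R f₁ y
  have hPd : ∀ R, P R → R ≤ d := by
    rintro R ⟨S, -, hS, hN⟩
    obtain ⟨y, hy⟩ := (compl p Y₁ S hS).1.nonempty
    exact ndeg_le (hN y hy)
  by_cases hr : P r
  · -- the largest one
    have hR : P (Nat.findGreatest P d) := Nat.findGreatest_spec (hPd r hr) hr
    have hle : r ≤ Nat.findGreatest P d := Nat.le_findGreatest (hPd r hr) hr
    set R := Nat.findGreatest P d with hRdef
    obtain ⟨S₂, h12, hS₂, hN⟩ := hR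
    have hP₂ := hP S₂ h12 hS₂.1
    have hN' : ∀ y ∉ S₂, ¬ TK.NDeg (p + d) p d (R + 1) f₁ y := by
      intro y hy hy'
      obtain ⟨S₃, h23, hS₃, hN'⟩ := deg p d (R + 1) X₁ Y₁ f₁ S₂ w hd h₁.hol hsurj hP₂ hS₂
        (compl p Y₁ S₂ hS₂).2 hw ⟨y, hy, hy'⟩
      have h3 : P (R + 1) := ⟨S₃, h12.trans h23, hS₃, hN'⟩
      have h4 := Nat.le_findGreatest (P := P) (hPd _ h3) h3
      omega
    have h1 := hfirst S₂ R hS₂ hP₂ (compl p Y₁ S₂ hS₂).2 (compl p Y₁ S₂ hS₂).1.nonempty hN hN'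
    refine ⟨fun _ => ∅, fun k => ?_, fun y hy F _ _ i hi hinj hG => ?_⟩
    · exact ⟨isClosed_empty, fun x => ⟨fun _ => 1, contMDiffAt_const,
        fun h0 => one_ne_zero (h0.self_of_nhds),
        Eventually.of_forall fun z hz => absurd hz (notMem_empty z)⟩⟩
    · refine le_trans (add_le_add ?_ le_rfl) h1
      exact_mod_cast hle
  · obtain ⟨S, H, hH, hmain⟩ := square gen img exc crit h h₁ hu hv hcomm hS₁ hP₁
    refine ⟨H, hH, fun y hy F _ _ i hi hinj hG => ?_⟩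
    obtain ⟨y₁, hsq⟩ := hmain y hy F i hi hinj
    obtain ⟨S₂, h12, hS₂, hN⟩ := deg p d r X₁ Y₁ f₁ S₁ w hd h₁.hol hsurj hP₁ hS₁
      (compl p Y₁ S₁ hS₁).2 hw
      ⟨y₁, hsq.out₁, fibN p d r X Y X₁ Y₁ f f₁ u v S S₁ y y₁ F i hd hsq ab hG⟩
    exact absurd ⟨S₂, h12, hS₂, hN⟩ hr

/-- the first inequality, Gauss maps of rank `r` -/
theorem first_r (alb : TU.AlbRStmt) (has : TU.HasRStmt) (lift : TU.LiftTStmt)
    (tame : TU.TameOKStmt) {p d r : ℕ} {X Y : Type} [TopologicalSpace X]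
    [ChartedSpace (Cm (p + d)) X] [TopologicalSpace Y] [ChartedSpace (Cm p) Y] {f : X → Y}
    {Δ : Set X → ℝ} (hd : 0 < d) (h : H511.Surf.IsFibration (Cm (p + d)) (Cm p) f Δ)
    {w : Chart (p + d) X → Cm (p + d) → Matrix (Fin (p + d)) (Fin (p + d)) ℂ} (hw : IsKahler w)
    {S : Set Y} (hS : IsSmallSet (Cm p) S) (hP : IsProperFibration (n := p + d) (p := p) f S)
    (hpre : IsPreconnected Sᶜ) (hne : Sᶜ.Nonempty) (hN : ∀ y ∉ S, TK.NDeg (p + d) p d r f y)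
    (hN' : ∀ y ∉ S, ¬ TK.NDeg (p + d) p d (r + 1) f y) :
    ((r : ℕ∞) : WithBot ℕ∞) + TZ.S.kodF (p + d) p Δ (id : X → X) f ≤
      TZ.S.kodX (Cm (p + d)) Δ := by
  have : T2Space X := h.hausdorff.1
  have : T2Space Y := h.hausdorff.2
  have : CompactSpace X := h.compact
  have : ConnectedSpace X := h.connected
  have : IsManifold 𝓘(ℂ, Cm (p + d)) ω X := h.manifold.1
  have : IsManifold 𝓘(ℂ, Cm p) ω Y := h.manifold.2
  obtain ⟨g, n, Q, ι, U, π, α, hA⟩ := alb p d r X Y f S w hd h.hol hP hpre hw hN hN' hne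
  have hr : r ≤ d := by
    obtain ⟨y, hy⟩ := hne
    exact ndeg_le (hN y hy)
  let e₀ : Cm (p + d) ≃L[ℂ] (Cm p × Cm d) := ContinuousLinearEquiv.ofFinrankEq (by
    simp)
  have hΔ0 : ∀ D, 0 ≤ Δ D := fun D => (snc01 (JB.snc h.snc) D).1
  refine first_of fun j₂ h₂ => ?_
  exact lift (p + d) p X Y (Cm d) (TU.KTame w) f S e₀ Δ r j₂
    (tame (p + d) d X w hw.toIsHermitian) h.hol hS hP.submersive h.snc
    (fun y hy => has p d r n g X Y (TU.KTame w) f S Q ι U π α e₀ Δ hd hr h.hol hA hΔ0 y hy)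
    h₂

/-- the identity is a modification -/
theorem modif_id {n : ℕ} {X : Type} [TopologicalSpace X] [ChartedSpace (Cm n) X] [T2Space X]
    [IsManifold 𝓘(ℂ, Cm n) ω X] : TZ.S.IsModif (Cm n) (id : X → X) := by
  refine ⟨⟨inferInstance, inferInstance, inferInstance, inferInstance⟩, contMDiff_id,
    isProperMap_id, univ, isOpen_univ, dense_univ, by simp, fun x _ => ⟨x, rfl, ?_⟩⟩
  intro z hz
  exact hz

/-- the first inequality for `f` itself -/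
theorem tuF (deg : TK.DegStmt) (ab : TK.ABStmt) (fibN : TK.FibNStmt)
    (gen : TK.GenNStmt) (img : TK.ImgNStmt) (exc : ExcStmt)
    (crit : CritStmt) (compl : ComplStmt) (alb : TU.AlbRStmt)
    (has : TU.HasRStmt) (lift : TU.LiftTStmt) (tame : TU.TameOKStmt)
    {p d r : ℕ} {X Y : Type} [TopologicalSpace X]
    [ChartedSpace (Cm (p + d)) X] [TopologicalSpace Y] [ChartedSpace (Cm p) Y] {f : X → Y}
    {Δ : Set X → ℝ} (hd : 0 < d) (h : H511.Surf.IsFibration (Cm (p + d)) (Cm p) f Δ)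
    {w : Chart (p + d) X → Cm (p + d) → Matrix (Fin (p + d)) (Fin (p + d)) ℂ} (hw : IsKahler w) :
    ∃ H : ℕ → Set Y, (∀ k, IsThinSet (Cm p) (H k)) ∧ ∀ y, (∀ k, y ∉ H k) →
      ∀ (F : Type) [TopologicalSpace F] [ChartedSpace (Cm d) F] (i : F → X),
        H511.Surf.IsFibre (Cm (p + d)) (Cm d) f y i → Function.Injective i → TK.GaussRank d F r →
        ((r : ℕ∞) : WithBot ℕ∞) + TZ.S.kodF (p + d) p Δ (id : X → X) f ≤
          TZ.S.kodX (Cm (p + d)) Δ := by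
  have : T2Space X := h.hausdorff.1
  have : T2Space Y := h.hausdorff.2
  have : IsManifold 𝓘(ℂ, Cm (p + d)) ω X := h.manifold.1
  have : IsManifold 𝓘(ℂ, Cm p) ω Y := h.manifold.2
  exact core deg ab fibN gen img exc crit compl (r := r) hd h h modif_id modif_id
    (fun x => rfl) hw fun S' R hS' hP' hpre hne hN hN' =>
      first_r alb has lift tame hd h hw hS' hP' hpre hne hN hN'

/-- **UF**, for every `r`: `r + κ(f | Δ) ≤ κ(X, K_X + Δ)` if the Gauss map of `F` has rank at least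
`r` -/
theorem tuR (deg : TK.DegStmt) (ab : TK.ABStmt) (fibN : TK.FibNStmt)
    (gen : TK.GenNStmt) (img : TK.ImgNStmt) (exc : ExcStmt)
    (crit : CritStmt) (compl : ComplStmt) (fin : FinStmt) (alb : TU.AlbRStmt)
    (has : TU.HasRStmt) (lift : TU.LiftTStmt) (tame : TU.TameOKStmt)
    {p d r : ℕ} {X Y X₁ Y₁ : Type} [tX : TopologicalSpace X]
    [cX : ChartedSpace (Cm (p + d)) X] [tY : TopologicalSpace Y] [cY : ChartedSpace (Cm p) Y]
    [TopologicalSpace X₁] [ChartedSpace (Cm (p + d)) X₁] [TopologicalSpace Y₁]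
    [ChartedSpace (Cm p) Y₁] {f : X → Y} {Δ : Set X → ℝ} {f₁ : X₁ → Y₁} {Δ₁ : Set X₁ → ℝ}
    (hd : 0 < d) (h : H511.Surf.IsFibration (Cm (p + d)) (Cm p) f Δ)
    (h₁ : H511.Surf.IsFibration (Cm (p + d)) (Cm p) f₁ Δ₁)
    (hs : TZ.S.IsStep (Cm (p + d)) (Cm p) f₁ Δ₁ f Δ)
    (he : NoExc (Cm (p + d)) (Cm p) f₁ ∨ ExcOne (Cm (p + d)) (Cm p) f₁ Δ₁)
    {w : Chart (p + d) X₁ → Cm (p + d) → Matrix (Fin (p + d)) (Fin (p + d)) ℂ}
    (hw : IsKahler w) :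
    ∃ H : ℕ → Set Y, (∀ k, IsThinSet (Cm p) (H k)) ∧ ∀ y, (∀ k, y ∉ H k) →
      ∀ (F : Type) [TopologicalSpace F] [ChartedSpace (Cm d) F] (i : F → X),
        H511.Surf.IsFibre (Cm (p + d)) (Cm d) f y i → Function.Injective i → TK.GaussRank d F r →
        ((r : ℕ∞) : WithBot ℕ∞) +
            TZ.S.kap (Cm (p + d)) (Cm p) ⟨X, Y, tX, tY, cX, cY, f, Δ⟩ ≤
          TZ.S.kodX (Cm (p + d)) Δ := by
  have hs' := hs
  obtain ⟨u, v, hu, hv, hcomm, -⟩ := hs'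
  obtain ⟨H, hH, hmain⟩ := core deg ab fibN gen img exc crit compl (r := r) hd h h₁ hu hv
    hcomm hw fun S' R hS' hP' hpre hne hN hN' =>
      first_r alb has lift tame hd h₁ hw hS' hP' hpre hne hN hN'
  refine ⟨H, hH, fun y hy F _ _ i hi hinj hG => ?_⟩
  exact fin (p + d) p X Y X₁ Y₁ f Δ f₁ Δ₁ h h₁ hs he _ (hmain y hy F i hi hinj hG)

end Vale.Agent.P281.H303.UF
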