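import Vale.Agent.P281.H303.UF.Cond
import Vale.Agent.P281.H64.TK.All
import Vale.Agent.P281.H64.TU.Alb
import Vale.Agent.P281.H349.U.Has
import Vale.Agent.P281.H383.U.Main
import Vale.Agent.P281.H383.U.Tame
import Vale.Agent.P281.H383.KN.Main
import Vale.Agent.P281.H485.U.Grad
import Vale.Agent.P281.H485.U.Norm
import Vale.Agent.P281.H969.K.FibN
import Vale.Agent.P281.H364.Gen.Neat

/-!
# P281, project T-U (helper303): the unconditional theorems
-/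

open Set Filter Metric Vale.Agent.P281 Vale.Agent.P281.H713
open Vale.Agent.P272.K (Chart IsKahler IsHermitian)
open Vale.Agent.P281.H713.TZ Vale.Agent.P281.H64
open Vale.Agent.P281.H64.Gen
open Vale.Agent.P281.H64.Thin (IsThinSet)
open scoped Topology ContDiff Manifold

set_option linter.all false

noncomputable section

namespace Vale.Agent.P281.H303.UF

theorem finStmt : FinStmt := by
  intro n p X Y X₁ Y₁ _ _ _ _ _ _ _ _ f Δ f₁ Δ₁ h h₁ hs he a hm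
  exact H364.Gen.neatFin h h₁ hs he hm

theorem albR : TU.AlbRStmt :=
  TU.albR TK.inputs H485.U.tameBound (H485.U.norm1 H864.K.e1)

theorem crit : CritStmt := H364.crit H150.Gen.img

/-- **T-U** for the fibrations with a good Kähler model: `r + κ(f | Δ) ≤ κ(X, K_X + Δ)` if the
Gauss map of `F` has rank at least `r`, and Q1 -/
theorem tuQ {p d : ℕ} {X Y X₁ Y₁ : Type} [tX : TopologicalSpace X]
    [cX : ChartedSpace (Cm (p + d)) X] [tY : TopologicalSpace Y] [cY : ChartedSpace (Cm p) Y]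
    [TopologicalSpace X₁] [ChartedSpace (Cm (p + d)) X₁] [TopologicalSpace Y₁]
    [ChartedSpace (Cm p) Y₁] (f : X → Y) (Δ : Set X → ℝ) (f₁ : X₁ → Y₁) (Δ₁ : Set X₁ → ℝ)
    (hd : 0 < d) (h : H511.Surf.IsFibration (Cm (p + d)) (Cm p) f Δ)
    (h₁ : H511.Surf.IsFibration (Cm (p + d)) (Cm p) f₁ Δ₁)
    (hs : TZ.S.IsStep (Cm (p + d)) (Cm p) f₁ Δ₁ f Δ)
    (he : NoExc (Cm (p + d)) (Cm p) f₁ ∨ ExcOne (Cm (p + d)) (Cm p) f₁ Δ₁)
    (hw : ∃ w : Chart (p + d) X₁ → Cm (p + d) → Matrix (Fin (p + d)) (Fin (p + d)) ℂ,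
      IsKahler w) :
    ∃ H : ℕ → Set Y, (∀ k, IsThinSet (Cm p) (H k)) ∧ ∀ y, (∀ k, y ∉ H k) →
      ∀ (F : Type) [TopologicalSpace F] [ChartedSpace (Cm d) F] (i : F → X),
        H511.Surf.IsFibre (Cm (p + d)) (Cm d) f y i → Function.Injective i →
        (∀ r : ℕ, TK.GaussRank d F r → ((r : ℕ∞) : WithBot ℕ∞) +
          TZ.S.kap (Cm (p + d)) (Cm p) ⟨X, Y, tX, tY, cX, cY, f, Δ⟩ ≤
            TZ.S.kodX (Cm (p + d)) Δ) ∧
        (Cond (p + d) d i Δ → H511.Surf.Q1 (Cm (p + d)) (Cm p) (Cm d) f Δ i) := by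
  obtain ⟨w, hw⟩ := hw
  exact all_r hd h fun r => tuR TK.degStmt H152.K.ab H969.K.FibN.fibN H383.KN.genN H383.KN.imgN
    H737.Gen.exc crit H383.Gen.compl finStmt albR H349.U.hasR H383.U.liftT H383.U.tameOK hd h h₁
    hs he hw

/-- **T-U**, the first inequality, `X` Kähler -/
theorem tuK {p d : ℕ} {X Y : Type} [TopologicalSpace X]
    [ChartedSpace (Cm (p + d)) X] [TopologicalSpace Y] [ChartedSpace (Cm p) Y]
    (f : X → Y) (Δ : Set X → ℝ) (hd : 0 < d)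
    (h : H511.Surf.IsFibration (Cm (p + d)) (Cm p) f Δ)
    (hw : ∃ w : Chart (p + d) X → Cm (p + d) → Matrix (Fin (p + d)) (Fin (p + d)) ℂ,
      IsKahler w) :
    (∃ H : ℕ → Set Y, (∀ k, IsThinSet (Cm p) (H k)) ∧ ∀ y, (∀ k, y ∉ H k) →
      ∀ (F : Type) [TopologicalSpace F] [ChartedSpace (Cm d) F] (i : F → X),
        H511.Surf.IsFibre (Cm (p + d)) (Cm d) f y i → Function.Injective i →
        (∀ r : ℕ, TK.GaussRank d F r → ((r : ℕ∞) : WithBot ℕ∞) +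
          TZ.S.kodF (p + d) p Δ (id : X → X) f ≤ TZ.S.kodX (Cm (p + d)) Δ) ∧
        (Cond (p + d) d i Δ → TZ.S.kodR (Cm (p + d)) (Cm d) i Δ +
          TZ.S.kodF (p + d) p Δ (id : X → X) f ≤ TZ.S.kodX (Cm (p + d)) Δ)) ∧
      TZ.S.KapLe (Cm (p + d)) (Cm p) f Δ (TZ.S.kodF (p + d) p Δ (id : X → X) f) := by
  obtain ⟨w, hw⟩ := hw
  exact ⟨all_r hd h fun r => tuF TK.degStmt H152.K.ab H969.K.FibN.fibN H383.KN.genN H383.KN.imgN
    H737.Gen.exc crit H383.Gen.compl albR H349.U.hasR H383.U.liftT H383.U.tameOK hd h hw,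
    H364.Gen.kapLe_of crit H383.Gen.compl H364.Gen.compStmt h⟩

end Vale.Agent.P281.H303.UF
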