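import Vale.Agent.P281.H303.UF.Core
import Vale.Agent.P281.H152.U.Ueno

/-!
# P281, project T-U (helper303): the condition on the fibres
-/

open Set Filter Metric Vale.Agent.P281 Vale.Agent.P281.H713
open Vale.Agent.P272.K (Chart IsKahler IsHermitian)
open Vale.Agent.P281.MF Vale.Agent.P281.ISO
open Vale.Agent.P281.H713.TZ Vale.Agent.P281.H64
open Vale.Agent.P281.H64.Gen
open Vale.Agent.P281.H64.Thin (IsThinSet)
open scoped Topology ContDiff Manifold

set_option linter.all false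

noncomputable section

namespace Vale.Agent.P281.H303.UF

variable {n d : ℕ} {X F : Type} [TopologicalSpace X] [ChartedSpace (Cm n) X]
    [TopologicalSpace F] [ChartedSpace (Cm d) F]

/-- `κ(F, K_F + i^* Δ) ≤ dim F` -/
theorem kodR_le (i : F → X) (Δ : Set X → ℝ) :
    TZ.S.kodR (Cm n) (Cm d) i Δ ≤ ((d : ℕ∞) : WithBot ℕ∞) := by
  unfold TZ.S.kodR
  rw [JB.kod_eq]
  unfold kod
  refine iSup₂_le fun l hl => ?_
  have h1 := kodGE_le hl
  rw [Module.finrank_fin_fun] at h1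
  exact_mod_cast h1

/-- the rank of the Gauss map is at most `d` -/
theorem gauss_le {r : ℕ} (h : TK.GaussRank d F r) : r ≤ d := by
  obtain ⟨x, φ, -, -, hs⟩ := h
  let L : Cm d →ₗ[ℂ] (Fin r → ℂ) := LinearMap.pi fun k : Fin r =>
    (fderiv ℂ (fun v => TK.coef x (φ k.succ) v / TK.coef x (φ 0) v) (chartAt (Cm d) x x) :
      Cm d →ₗ[ℂ] ℂ)
  have hL : Function.Surjective L := hs
  have h1 := LinearMap.finrank_le_finrank_of_surjective hL
  rw [Module.finrank_fin_fun] at h1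
  exact h1.trans (le_of_eq (Module.finrank_fin_fun ℂ))

/-- the condition on the fibre -/
def Cond (n d : ℕ) {X F : Type} [TopologicalSpace X] [ChartedSpace (Cm n) X]
    [TopologicalSpace F] [ChartedSpace (Cm d) F] (i : F → X) (Δ : Set X → ℝ) : Prop :=
  TK.GaussRank d F d ∨ (TU.IsGen d F ∧ ∀ D, Δ D ≠ 0 → ∀ t, i t ∉ D) ∨
    ∃ r : ℕ, TK.GaussRank d F r ∧ TZ.S.kodR (Cm n) (Cm d) i Δ ≤ ((r : ℕ∞) : WithBot ℕ∞)

theorem cond_rank [IsManifold 𝓘(ℂ, Cm n) ω X] [IsManifold 𝓘(ℂ, Cm d) ω F] [CompactSpace F]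
    [ConnectedSpace F] {i : F → X} {Δ : Set X → ℝ} (hd : 0 < d)
    (hi : ContMDiff 𝓘(ℂ, Cm d) 𝓘(ℂ, Cm n) ω i) (h : Cond n d i Δ) :
    ∃ r : ℕ, TK.GaussRank d F r ∧ TZ.S.kodR (Cm n) (Cm d) i Δ ≤ ((r : ℕ∞) : WithBot ℕ∞) := by
  classical
  rcases h with h | ⟨hg, hΔ⟩ | h
  · exact ⟨d, h, kodR_le i Δ⟩
  · have h0 : TK.GaussRank d F 0 := by
      obtain ⟨z⟩ : Nonempty F := inferInstance
      refine H152.U.rank_ge hg (m := 0) (s := fun _ _ => 1) (fun b p => ⟨fun _ => 1, ?_, ?_⟩)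
        (z := z) one_ne_zero ?_
      · exact contMDiffAt_const
      · exact Eventually.of_forall fun w => by simp
      · intro y
        exact ⟨0, Subsingleton.elim _ _⟩
    have h1 : TK.GaussRank d F (Nat.findGreatest (fun r => TK.GaussRank d F r) d) :=
      Nat.findGreatest_spec (P := fun r => TK.GaussRank d F r) (Nat.zero_le d) h0
    refine ⟨_, h1, H152.U.ueno n d _ X F i Δ hd hi hg (fun h2 => ?_) hΔ⟩
    have h3 := Nat.le_findGreatest (P := fun r => TK.GaussRank d F r) (gauss_le h2) h2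
    omega
  · exact h

/-- from one `r` to all `r`, and to Q1 -/
theorem all_r {p n d : ℕ} {X Y : Type} [TopologicalSpace X] [ChartedSpace (Cm n) X]
    [TopologicalSpace Y] [ChartedSpace (Cm p) Y] {f : X → Y} {Δ : Set X → ℝ} (hd : 0 < d)
    (hf : H511.Surf.IsFibration (Cm n) (Cm p) f Δ) {a b : WithBot ℕ∞}
    (h : ∀ r : ℕ, ∃ H : ℕ → Set Y, (∀ k, IsThinSet (Cm p) (H k)) ∧ ∀ y, (∀ k, y ∉ H k) →
      ∀ (F : Type) [TopologicalSpace F] [ChartedSpace (Cm d) F] (i : F → X),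
        H511.Surf.IsFibre (Cm n) (Cm d) f y i → Function.Injective i → TK.GaussRank d F r →
        ((r : ℕ∞) : WithBot ℕ∞) + a ≤ b) :
    ∃ H : ℕ → Set Y, (∀ k, IsThinSet (Cm p) (H k)) ∧ ∀ y, (∀ k, y ∉ H k) →
      ∀ (F : Type) [TopologicalSpace F] [ChartedSpace (Cm d) F] (i : F → X),
        H511.Surf.IsFibre (Cm n) (Cm d) f y i → Function.Injective i →
        (∀ r : ℕ, TK.GaussRank d F r → ((r : ℕ∞) : WithBot ℕ∞) + a ≤ b) ∧
        (Cond n d i Δ → TZ.S.kodR (Cm n) (Cm d) i Δ + a ≤ b) := by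
  choose H hH hmain using h
  refine ⟨fun k => H k.unpair.1 k.unpair.2, fun k => hH _ _, fun y hy F _ _ i hi hinj => ?_⟩
  have := hf.manifold.1
  have := hi.manifold
  have := hi.compact
  have := hi.connected
  have hall : ∀ r : ℕ, TK.GaussRank d F r → ((r : ℕ∞) : WithBot ℕ∞) + a ≤ b := by
    intro r hr
    refine hmain r y (fun k => ?_) F i hi hinj hr
    have h3 := hy (Nat.pair r k)
    simpa using h3
  refine ⟨hall, fun hc => ?_⟩
  obtain ⟨r, h1, h2⟩ := cond_rank hd hi.hol hc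
  exact (add_le_add h2 le_rfl).trans (hall r h1)

end Vale.Agent.P281.H303.UF
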